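import Vale.Agent.Lib.P063.Main

/-!
# P063: the Friedgut-Kalai threshold-width conjecture, graphs and hypergraphs

Third formulation: graph properties as predicates on the simple graphs on `Fin n`, hypergraph
properties as predicates on finite sets of `r`-element subsets of `Fin n`.
-/

namespace Vale.Agent.Results.P063.GraphsAndHypergraphs

open Finset

open Classical in
/-- `μ_p(P)` for a graph property `P`: the probability that the random graph on `n` vertices, with
each of the `n.choose 2` edges present independently with probability `p`, has the property. -/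
noncomputable def graphProb (n : ℕ) (P : SimpleGraph (Fin n) → Prop) (p : ℝ) : ℝ :=
  ∑ G : SimpleGraph (Fin n),
    if P G then p ^ #G.edgeFinset * (1 - p) ^ (n.choose 2 - #G.edgeFinset) else 0

open Classical in
/-- `μ_p(P)` for an `r`-uniform hypergraph property: the sum is over all sets `H` of `r`-element
subsets of the vertex set, i.e. over all `r`-uniform hypergraphs. -/
noncomputable def hyperProb (n r : ℕ) (P : Finset (Finset (Fin n)) → Prop) (p : ℝ) : ℝ :=
  ∑ H ∈ (Finset.powersetCard r (Finset.univ : Finset (Fin n))).powerset,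
    if P H then p ^ #H * (1 - p) ^ (n.choose r - #H) else 0

/-- `p_a = inf {p ∈ [0,1] : μ_p ≥ a}` for the function `μ : p ↦ μ_p(P)`. -/
noncomputable def crit (μ : ℝ → ℝ) (a : ℝ) : ℝ := sInf {p : ℝ | 0 ≤ p ∧ p ≤ 1 ∧ a ≤ μ p}

open Vale.Agent.P063

private theorem prod_pow {n r : ℕ} (x : HGraph n r) (p : ℝ) :
    ∏ e, (if x e = true then p else 1 - p)
      = p ^ #(Finset.univ.filter fun e => x e = true)
        * (1 - p) ^ (n.choose r - #(Finset.univ.filter fun e => x e = true)) := by
  rw [Finset.prod_ite, Finset.prod_const, Finset.prod_const]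
  congr 2
  have h1 := Finset.card_filter_add_card_filter_not (s := (Finset.univ : Finset (Edge n r)))
    (fun e => x e = true)
  have h2 : #(Finset.univ : Finset (Edge n r)) = n.choose r := by
    rw [Finset.card_univ, Fintype.card_finset_len, Fintype.card_fin]
  omega

/-- the set of edges -/
private def fam {n r : ℕ} (x : HGraph n r) : Finset (Finset (Fin n)) :=
  (Finset.univ.filter fun e => x e = true).map (Function.Embedding.subtype _)

private theorem mem_fam {n r : ℕ} {x : HGraph n r} {s : Finset (Fin n)} :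
    s ∈ fam x ↔ ∃ h : s.card = r, x ⟨s, h⟩ = true := by
  unfold fam
  rw [Finset.mem_map]
  constructor
  · rintro ⟨e, he, rfl⟩
    exact ⟨e.2, (Finset.mem_filter.1 he).2⟩
  · rintro ⟨h, hx⟩
    exact ⟨⟨s, h⟩, Finset.mem_filter.2 ⟨Finset.mem_univ _, hx⟩, rfl⟩

private theorem card_fam {n r : ℕ} (x : HGraph n r) :
    #(fam x) = #(Finset.univ.filter fun e => x e = true) := Finset.card_map _

private theorem fam_inj {n r : ℕ} {x y : HGraph n r} (h : fam x = fam y) : x = y := by
  funext e
  have h1 : (x e = true) ↔ (y e = true) := by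
    have h2 : e.1 ∈ fam x ↔ e.1 ∈ fam y := by rw [h]
    rw [mem_fam, mem_fam] at h2
    constructor
    · intro h3
      obtain ⟨_, h4⟩ := h2.1 ⟨e.2, h3⟩
      exact h4
    · intro h3
      obtain ⟨_, h4⟩ := h2.2 ⟨e.2, h3⟩
      exact h4
  cases h5 : x e <;> cases h6 : y e <;> simp_all

open Classical in
private theorem hyper_eq {n r : ℕ} (P : Finset (Finset (Fin n)) → Prop) (p : ℝ) :
    mu {x : HGraph n r | P (fam x)} p = hyperProb n r P p := by
  unfold mu hyperProb
  refine Finset.sum_bij (fun x _ => fam x) ?_ ?_ ?_ ?_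
  · intro x _
    rw [Finset.mem_powerset]
    intro s hs
    obtain ⟨h, -⟩ := mem_fam.1 hs
    rw [Finset.mem_powersetCard]
    exact ⟨Finset.subset_univ _, h⟩
  · intro x _ y _ h
    exact fam_inj h
  · intro H hH
    rw [Finset.mem_powerset] at hH
    refine ⟨fun e => decide (e.1 ∈ H), Finset.mem_univ _, ?_⟩
    ext s
    rw [mem_fam]
    constructor
    · rintro ⟨_, h⟩
      simpa using h
    · intro hs
      exact ⟨(Finset.mem_powersetCard.1 (hH hs)).2, by simpa using hs⟩
  · intro x _
    have h1 : (x ∈ {x : HGraph n r | P (fam x)}) ↔ P (fam x) := Iff.rfl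
    by_cases h2 : P (fam x)
    · rw [if_pos (h1.2 h2), if_pos h2, prod_pow, card_fam]
    · rw [if_neg (fun h3 => h2 (h1.1 h3)), if_neg h2]

private theorem fam_perm {n r : ℕ} (σ : Equiv.Perm (Fin n)) (x : HGraph n r) :
    (fam fun e => x (permEdge σ e)).image (fun s => s.map σ.toEmbedding) = fam x := by
  ext s
  rw [Finset.mem_image]
  constructor
  · rintro ⟨t, ht, rfl⟩
    obtain ⟨h1, h2⟩ := mem_fam.1 ht
    exact mem_fam.2 ⟨by rw [Finset.card_map]; exact h1, h2⟩
  · intro hs
    obtain ⟨h1, h2⟩ := mem_fam.1 hs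
    have h3 : (s.map σ.symm.toEmbedding).map σ.toEmbedding = s := by
      rw [Finset.map_map]
      convert Finset.map_refl
      ext a
      simp
    refine ⟨s.map σ.symm.toEmbedding, mem_fam.2 ⟨by rw [Finset.card_map]; exact h1, ?_⟩, h3⟩
    have h4 : permEdge σ ⟨s.map σ.symm.toEmbedding, by rw [Finset.card_map]; exact h1⟩
        = ⟨s, h1⟩ := Subtype.ext h3
    rw [h4]
    exact h2

/-- the graph -/
private def toGraph {n : ℕ} (x : HGraph n 2) : SimpleGraph (Fin n) where
  Adj a b := ∃ h : a ≠ b, x ⟨{a, b}, Finset.card_pair h⟩ = true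
  symm := ⟨fun a b ⟨h, hx⟩ => ⟨h.symm, by
    have h1 : (⟨{b, a}, Finset.card_pair h.symm⟩ : Edge n 2) = ⟨{a, b}, Finset.card_pair h⟩ :=
      Subtype.ext (Finset.pair_comm b a)
    rw [h1]
    exact hx⟩⟩
  loopless := ⟨fun a h => h.1 rfl⟩

private theorem adj_fam {n : ℕ} {x : HGraph n 2} {a b : Fin n} :
    (toGraph x).Adj a b ↔ a ≠ b ∧ ({a, b} : Finset (Fin n)) ∈ fam x := by
  rw [mem_fam]
  constructor
  · rintro ⟨h, hx⟩
    exact ⟨h, Finset.card_pair h, hx⟩
  · rintro ⟨h, _, hx⟩
    exact ⟨h, hx⟩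

private theorem toFinset_pair {n : ℕ} (a b : Fin n) : s(a, b).toFinset = {a, b} := by
  ext c
  simp

open Classical in
private theorem image_edges {n : ℕ} (x : HGraph n 2) :
    (toGraph x).edgeFinset.image Sym2.toFinset = fam x := by
  ext s
  rw [Finset.mem_image]
  constructor
  · rintro ⟨e, he, rfl⟩
    induction e using Sym2.ind with
    | _ a b =>
      rw [SimpleGraph.mem_edgeFinset] at he
      rw [toFinset_pair]
      exact (adj_fam.1 he).2
  · intro hs
    obtain ⟨h1, -⟩ := mem_fam.1 hs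
    obtain ⟨a, b, hab, rfl⟩ := Finset.card_eq_two.1 h1
    refine ⟨s(a, b), ?_, toFinset_pair a b⟩
    rw [SimpleGraph.mem_edgeFinset]
    exact adj_fam.2 ⟨hab, hs⟩

open Classical in
private theorem card_edges {n : ℕ} (x : HGraph n 2) :
    #(toGraph x).edgeFinset = #(Finset.univ.filter fun e => x e = true) := by
  rw [← card_fam, ← image_edges x, Finset.card_image_of_injOn]
  intro e _ e' _ h
  refine Sym2.ext fun c => ?_
  rw [← Sym2.mem_toFinset, ← Sym2.mem_toFinset, h]

open Classical in
private theorem fam_surj {n r : ℕ} {H : Finset (Finset (Fin n))} (hH : ∀ e ∈ H, e.card = r) :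
    ∃ x : HGraph n r, fam x = H := by
  refine ⟨fun e => decide (e.1 ∈ H), ?_⟩
  ext s
  rw [mem_fam]
  constructor
  · rintro ⟨_, h⟩
    simpa using h
  · intro hs
    exact ⟨hH s hs, by simpa using hs⟩

open Classical in
private theorem toGraph_surj {n : ℕ} (G : SimpleGraph (Fin n)) :
    ∃ x : HGraph n 2, toGraph x = G := by
  refine ⟨fun e => decide (∃ a b, e.1 = {a, b} ∧ G.Adj a b), ?_⟩
  ext a b
  constructor
  · rintro ⟨h, hx⟩
    obtain ⟨c, d, h1, h2⟩ := of_decide_eq_true hx
    have h3 : a ∈ ({c, d} : Finset (Fin n)) := by rw [← h1]; simp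
    have h4 : b ∈ ({c, d} : Finset (Fin n)) := by rw [← h1]; simp
    simp only [Finset.mem_insert, Finset.mem_singleton] at h3 h4
    rcases h3 with h3 | h3 <;> rcases h4 with h4 | h4
    · exact absurd (h3.trans h4.symm) h
    · rw [h3, h4]; exact h2
    · rw [h3, h4]; exact h2.symm
    · exact absurd (h3.trans h4.symm) h
  · intro h
    exact ⟨h.ne, decide_eq_true ⟨a, b, rfl, h⟩⟩

open Classical in
private theorem graph_eq {n : ℕ} (P : SimpleGraph (Fin n) → Prop) (p : ℝ) :
    mu {x : HGraph n 2 | P (toGraph x)} p = graphProb n P p := by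
  unfold mu graphProb
  refine Finset.sum_bij (fun x _ => toGraph x) ?_ ?_ ?_ ?_
  · intro x _
    exact Finset.mem_univ _
  · intro x _ y _ h
    refine fam_inj ?_
    rw [← image_edges x, ← image_edges y]
    congr 1
    ext e
    rw [SimpleGraph.mem_edgeFinset, SimpleGraph.mem_edgeFinset, h]
  · intro G _
    obtain ⟨x, hx⟩ := toGraph_surj G
    exact ⟨x, Finset.mem_univ _, hx⟩
  · intro x _
    have h1 : (x ∈ {x : HGraph n 2 | P (toGraph x)}) ↔ P (toGraph x) := Iff.rfl
    by_cases h2 : P (toGraph x)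
    · rw [if_pos (h1.2 h2), if_pos h2, prod_pow, card_edges]
    · rw [if_neg (fun h3 => h2 (h1.1 h3)), if_neg h2]

private theorem crit_eq {n r : ℕ} (P : Set (HGraph n r)) (μ : ℝ → ℝ) (h : ∀ p, mu P p = μ p)
    (a : ℝ) : pcrit P a = crit μ a := by
  unfold pcrit crit
  congr 1
  ext p
  simp only [Set.mem_Icc, Set.mem_ofPred_eq, h p]
  tauto

/-- vertex permutations act by isomorphisms -/
private def permIso {n : ℕ} (σ : Equiv.Perm (Fin n)) (x : HGraph n 2) :
    toGraph (fun e => x (permEdge σ e)) ≃g toGraph x where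
  toEquiv := σ
  map_rel_iff' := by
    intro a b
    have h1 : ∀ h : a ≠ b, permEdge σ ⟨{a, b}, Finset.card_pair h⟩
        = ⟨{σ a, σ b}, Finset.card_pair (fun h' => h (σ.injective h'))⟩ := by
      intro h
      refine Subtype.ext ?_
      change ({a, b} : Finset (Fin n)).map σ.toEmbedding = _
      rw [Finset.map_insert, Finset.map_singleton]
      rfl
    constructor
    · rintro ⟨h, hx⟩
      have h2 : a ≠ b := fun h' => h (by rw [h'])
      refine ⟨h2, ?_⟩
      change x (permEdge σ ⟨{a, b}, Finset.card_pair h2⟩) = true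
      rw [h1 h2]
      exact hx
    · rintro ⟨h, hx⟩
      refine ⟨fun h' => h (σ.injective h'), ?_⟩
      change x (permEdge σ ⟨{a, b}, Finset.card_pair h⟩) = true at hx
      rw [h1 h] at hx
      exact hx

/-- **Friedgut-Kalai.**  First part (graphs): for every `0 < ε < 1/2` there is `C` such that for
all `n ≥ 2` every isomorphism-invariant property of the simple graphs on `n` vertices which is
preserved by adding edges, holds for some graph and fails for some graph has threshold width
`p_{1-ε} - p_ε ≤ C / (log n)^2`.  Second part: the same for `r`-uniform hypergraph properties,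
`r ≥ 3`, with `C (log n)^(-r/(r-1))`. -/
theorem result :
    (∀ ε : ℝ, 0 < ε → ε < 1 / 2 → ∃ C : ℝ, ∀ n : ℕ, 2 ≤ n → ∀ P : SimpleGraph (Fin n) → Prop,
      (∀ G G' : SimpleGraph (Fin n), Nonempty (G ≃g G') → P G → P G') →
      (∀ G G' : SimpleGraph (Fin n), G ≤ G' → P G → P G') → (∃ G, P G) → (∃ G, ¬ P G) →
      crit (graphProb n P) (1 - ε) - crit (graphProb n P) ε ≤ C / (Real.log n) ^ 2) ∧
    (∀ r : ℕ, 3 ≤ r → ∀ ε : ℝ, 0 < ε → ε < 1 / 2 → ∃ C : ℝ, ∀ n : ℕ, r ≤ n →
      ∀ P : Finset (Finset (Fin n)) → Prop,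
      (∀ (σ : Equiv.Perm (Fin n)) (H : Finset (Finset (Fin n))), P H →
        P (H.image fun e => e.map σ.toEmbedding)) →
      (∀ H H' : Finset (Finset (Fin n)), (∀ e ∈ H', e.card = r) → H ⊆ H' → P H → P H') →
      (∃ H : Finset (Finset (Fin n)), (∀ e ∈ H, e.card = r) ∧ P H) →
      (∃ H : Finset (Finset (Fin n)), (∀ e ∈ H, e.card = r) ∧ ¬ P H) →
      crit (hyperProb n r P) (1 - ε) - crit (hyperProb n r P) ε
        ≤ C * (Real.log n) ^ (-((r : ℝ) / (r - 1)))) := by
  constructor
  · intro ε h0 h1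
    refine ⟨16384 * (2 : ℕ) / (ε * (1 - ε)), fun n hn P hiso hmono ⟨G1, hG1⟩ ⟨G2, hG2⟩ => ?_⟩
    have hw := width_bound (le_refl 2) hn {x : HGraph n 2 | P (toGraph x)} ?_ ?_ ?_ ?_ ε h0 h1
    · unfold width at hw
      rw [crit_eq _ _ (graph_eq P), crit_eq _ _ (graph_eq P)] at hw
      have e1 : (-(((2 : ℕ) : ℝ) / (((2 : ℕ) : ℝ) - 1))) = -((2 : ℕ) : ℝ) := by
        push_cast
        norm_num
      have hlog : 0 ≤ Real.log n := Real.log_natCast_nonneg n
      rw [e1, Real.rpow_neg hlog, Real.rpow_natCast, ← div_eq_mul_inv] at hw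
      exact hw
    · intro σ x
      exact ⟨hiso _ _ ⟨permIso σ x⟩, hiso _ _ ⟨(permIso σ x).symm⟩⟩
    · intro x y hxy hx
      refine hmono _ _ ?_ hx
      rintro a b ⟨h, hab⟩
      exact ⟨h, hxy _ hab⟩
    · obtain ⟨x, hx⟩ := toGraph_surj G1
      exact ⟨x, by rw [Set.mem_ofPred_eq, hx]; exact hG1⟩
    · obtain ⟨x, hx⟩ := toGraph_surj G2
      intro h2
      have h3 : x ∈ {x : HGraph n 2 | P (toGraph x)} := by rw [h2]; exact Set.mem_univ _
      rw [Set.mem_ofPred_eq, hx] at h3
      exact hG2 h3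
  · intro r hr ε h0 h1
    refine ⟨16384 * r / (ε * (1 - ε)), fun n hn P hperm hmono ⟨H1, hH1, hP1⟩ ⟨H2, hH2, hP2⟩ => ?_⟩
    have hw := width_bound (by omega : 2 ≤ r) hn {x : HGraph n r | P (fam x)} ?_ ?_ ?_ ?_ ε h0 h1
    · unfold width at hw
      rwa [crit_eq _ _ (hyper_eq P), crit_eq _ _ (hyper_eq P)] at hw
    · intro σ x
      constructor
      · intro h2
        have h3 := hperm σ _ h2
        rwa [fam_perm] at h3
      · intro h2
        have h3 := hperm σ⁻¹ _ h2
        have h4 : (fam x).image (fun s => s.map (σ⁻¹).toEmbedding)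
            = fam (fun e => x (permEdge σ e)) := by
          have h5 := fam_perm σ⁻¹ (fun e => x (permEdge σ e))
          rw [← h5]
          congr 2
          funext e
          congr 1
          refine Subtype.ext ?_
          change e.1 = (e.1.map (σ⁻¹).toEmbedding).map σ.toEmbedding
          rw [Finset.map_map]
          symm
          convert Finset.map_refl
          ext a
          simp
        rwa [h4] at h3
    · intro x y hxy hx
      refine hmono _ _ ?_ ?_ hx
      · intro e he
        obtain ⟨h2, -⟩ := mem_fam.1 he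
        exact h2
      · intro e he
        obtain ⟨h2, h3⟩ := mem_fam.1 he
        exact mem_fam.2 ⟨h2, hxy _ h3⟩
    · obtain ⟨x, hx⟩ := fam_surj hH1
      exact ⟨x, by rw [Set.mem_ofPred_eq, hx]; exact hP1⟩
    · obtain ⟨x, hx⟩ := fam_surj hH2
      intro h2
      have h3 : x ∈ {x : HGraph n r | P (fam x)} := by rw [h2]; exact Set.mem_univ _
      rw [Set.mem_ofPred_eq, hx] at h3
      exact hP2 h3

end Vale.Agent.Results.P063.GraphsAndHypergraphs
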