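import Mathlib
import Vale.Agent.Lib.P063.Main

set_option autoImplicit false

namespace Vale.Agent.Results.P063.ThresholdWidth

open Vale.Agent.P063

/-- Every nontrivial increasing `r`-uniform hypergraph property on `n` vertices (`2 ≤ r ≤ n`) has
threshold width at most `C_{r,ε} (log n)^{-r/(r-1)}`, with `C_{r,ε} = 16384 r / (ε (1 - ε))`. -/
theorem result (r n : ℕ) (hr : 2 ≤ r) (hn : r ≤ n) (P : Set (HGraph n r))
    (hprop : IsProperty P) (hinc : Increasing P) (hne : P ≠ ∅) (hnu : P ≠ Set.univ)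
    (ε : ℝ) (hε : 0 < ε) (hε' : ε < 1 / 2) :
    width P ε ≤ 16384 * r / (ε * (1 - ε)) * (Real.log n) ^ (-((r : ℝ) / ((r : ℝ) - 1))) :=
  width_bound hr hn P hprop hinc (Set.nonempty_iff_ne_empty.mpr hne) hnu ε hε hε'

end Vale.Agent.Results.P063.ThresholdWidth
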