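import Mathlib
import Vale.Agent.Lib.P063.Infl

set_option autoImplicit false

namespace Vale.Agent.Results.P063.TotalInfluence

open Vale.Agent.P063

/-- The total influence of every `r`-uniform hypergraph property (not necessarily increasing) on
`n` vertices is at least `c_r (log n)^{r/(r-1)}` times its variance, for every `p` in `(0,1)`. -/
theorem result (r n : ℕ) (hr : 2 ≤ r) (hn : r ≤ n) (P : Set (HGraph n r))
    (hprop : IsProperty P) (p : ℝ) (h0 : 0 < p) (h1 : p < 1) :
    (Real.log n) ^ ((r : ℝ) / ((r : ℝ) - 1)) * (mu P p * (1 - mu P p))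
      ≤ 16384 * r * totalInfluence P p :=
  influence_bound hr hn P hprop h0 h1

end Vale.Agent.Results.P063.TotalInfluence
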